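import Mathlib
import Crest.Prelude.Def_BoxFlow

/-!
# Global flows of bounded, uniformly Lipschitz time-dependent vector fields (package (e) of S0170)

* `exists_global_solution` : a time-dependent field `f : ℝ → E → E` that is continuous in time,
  globally bounded and uniformly globally Lipschitz in space has a global flow.
* `bounded_lipschitz_of_smooth` : a `C^1` compactly supported `Field` is bounded and Lipschitz.
* `exists_isFlow` : existence of `Φ` with `IsFlow U Φ`.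
* `isFlow_eq_of_curve` : uniqueness against an explicit curve on a time interval.
* `isFlow_const_of_zero`, `isFlow_eq_add_smul` : the two corollaries used for box tracking.
-/

set_option autoImplicit false
open scoped NNReal Topology
open Set Metric Filter
open Crest.AnalysisR.BoxFlow

namespace Crest.Agent.Helper68

section General
variable {E : Type*} [NormedAddCommGroup E] [NormedSpace ℝ E]

/-- One application of Picard–Lindelöf on `[-T, T]`: no continuation argument is needed for a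
globally bounded and globally Lipschitz field. -/
theorem exists_solution_Icc [CompleteSpace E] (f : ℝ → E → E) (C K : ℝ≥0)
    (hcont : ∀ x, Continuous (fun t => f t x))
    (hC : ∀ t x, ‖f t x‖ ≤ C)
    (hK : ∀ t, LipschitzWith K (f t)) (T : ℝ) (hT : 0 ≤ T) (x : E) :
    ∃ α : ℝ → E, α 0 = x ∧ ∀ t ∈ Icc (-T) T, HasDerivWithinAt α (f t (α t)) (Icc (-T) T) t := by
  have h0 : (0 : ℝ) ∈ Icc (-T) T := ⟨by linarith, hT⟩
  have hPL : IsPicardLindelof f (⟨0, h0⟩ : Icc (-T) T) x (C * T.toNNReal) 0 C K := by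
    refine ⟨fun t _ => (hK t).lipschitzOnWith, fun y _ => (hcont y).continuousOn,
      fun t _ y _ => hC t y, ?_⟩
    simp only [sub_zero, zero_sub, neg_neg, max_self, NNReal.coe_mul, NNReal.coe_zero]
    rw [Real.coe_toNNReal T hT]
  obtain ⟨α, hα0, hα⟩ := hPL.exists_eq_forall_mem_Icc_hasDerivWithinAt₀
  exact ⟨α, hα0, hα⟩

/-- Two solutions on `[-T, T]` with the same value at time `0` agree there. -/
theorem solution_Icc_unique (f : ℝ → E → E) (K : ℝ≥0)
    (hK : ∀ t, LipschitzWith K (f t)) (T : ℝ) (α β : ℝ → E) (h0 : α 0 = β 0)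
    (hα : ∀ t ∈ Icc (-T) T, HasDerivWithinAt α (f t (α t)) (Icc (-T) T) t)
    (hβ : ∀ t ∈ Icc (-T) T, HasDerivWithinAt β (f t (β t)) (Icc (-T) T) t) :
    EqOn α β (Icc (-T) T) := by
  intro t ht
  rcases le_or_gt 0 t with h | h
  · -- forward in time on `[0, T]`
    have hT : 0 ≤ T := h.trans ht.2
    have hsub : Icc 0 T ⊆ Icc (-T) T := Icc_subset_Icc (by linarith) le_rfl
    have key := ODE_solution_unique (v := f) (K := K) (f := α) (g := β) (a := 0) (b := T) hK
      (fun s hs => ((hα s (hsub hs)).continuousWithinAt).mono hsub)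
      (fun s hs => (hα s (hsub (Ico_subset_Icc_self hs))).mono_of_mem_nhdsWithin
        (mem_of_superset (Icc_mem_nhdsGE_of_mem hs) hsub))
      (fun s hs => ((hβ s (hsub hs)).continuousWithinAt).mono hsub)
      (fun s hs => (hβ s (hsub (Ico_subset_Icc_self hs))).mono_of_mem_nhdsWithin
        (mem_of_superset (Icc_mem_nhdsGE_of_mem hs) hsub))
      h0
    exact key ⟨h, ht.2⟩
  · -- backward in time on `[-T, 0]`
    have hT : 0 ≤ T := by linarith [ht.1]
    have hsub : Icc (-T) 0 ⊆ Icc (-T) T := Icc_subset_Icc le_rfl hT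
    have key := ODE_solution_unique_of_mem_Icc_left (v := f) (K := K) (f := α) (g := β)
      (a := -T) (b := 0) (s := fun _ => univ)
      (fun s _ => (hK s).lipschitzOnWith)
      (fun s hs => ((hα s (hsub hs)).continuousWithinAt).mono hsub)
      (fun s hs => (hα s (hsub (Ioc_subset_Icc_self hs))).mono_of_mem_nhdsWithin
        (mem_of_superset (Icc_mem_nhdsLE_of_mem hs) hsub))
      (fun _ _ => mem_univ _)
      (fun s hs => ((hβ s (hsub hs)).continuousWithinAt).mono hsub)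
      (fun s hs => (hβ s (hsub (Ioc_subset_Icc_self hs))).mono_of_mem_nhdsWithin
        (mem_of_superset (Icc_mem_nhdsLE_of_mem hs) hsub))
      (fun _ _ => mem_univ _)
      h0
    exact key ⟨ht.1, h.le⟩

/-- **Global existence of the flow** of a time-dependent vector field that is continuous in time,
globally bounded and uniformly globally Lipschitz in space. -/
theorem exists_global_solution [CompleteSpace E] (f : ℝ → E → E) (C K : ℝ≥0)
    (hcont : ∀ x, Continuous (fun t => f t x))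
    (hC : ∀ t x, ‖f t x‖ ≤ C)
    (hK : ∀ t, LipschitzWith K (f t)) :
    ∃ Φ : ℝ → E → E, (∀ x, Φ 0 x = x) ∧
      ∀ t x, HasDerivAt (fun s => Φ s x) (f t (Φ t x)) t := by
  have hex : ∀ (n : ℕ) (x : E), ∃ α : ℝ → E, α 0 = x ∧
      ∀ t ∈ Icc (-(n : ℝ)) n, HasDerivWithinAt α (f t (α t)) (Icc (-(n : ℝ)) n) t :=
    fun n x => exists_solution_Icc f C K hcont hC hK n (Nat.cast_nonneg n) x
  choose α hα0 hα using hex
  -- consistency of the solutions on nested intervals
  have hcons : ∀ (n m : ℕ) (x : E), n ≤ m → EqOn (α n x) (α m x) (Icc (-(n : ℝ)) n) := by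
    intro n m x hnm
    have hnm' : (n : ℝ) ≤ m := by exact_mod_cast hnm
    have hsub : Icc (-(n : ℝ)) n ⊆ Icc (-(m : ℝ)) m := Icc_subset_Icc (by linarith) hnm'
    refine solution_Icc_unique f K hK n (α n x) (α m x) ((hα0 n x).trans (hα0 m x).symm)
      (hα n x) (fun t ht => ?_)
    rcases eq_or_lt_of_le hnm' with heq | hlt
    · have : Icc (-(n : ℝ)) n = Icc (-(m : ℝ)) m := by rw [heq]
      rw [this]; exact hα m x t (hsub ht)
    · exact (hα m x t (hsub ht)).mono hsub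
  let N : ℝ → ℕ := fun t => ⌈|t|⌉₊ + 1
  have hN : ∀ t : ℝ, |t| < (N t : ℝ) := by
    intro t
    have h1 : |t| ≤ (⌈|t|⌉₊ : ℝ) := Nat.le_ceil _
    have h2 : ((N t : ℕ) : ℝ) = (⌈|t|⌉₊ : ℝ) + 1 := by simp [N]
    linarith
  refine ⟨fun t x => α (N t) x t, fun x => hα0 _ x, fun t x => ?_⟩
  set m : ℕ := N t + 1 with hm
  have hmt : |t| < (m : ℝ) := by
    have := hN t
    have h2 : (m : ℝ) = (N t : ℝ) + 1 := by simp [hm]
    linarith
  have htm : t ∈ Ioo (-(m : ℝ)) m := abs_lt.mp hmt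
  -- near `t` the glued curve coincides with `α m x`
  have hev : (fun s => α (N s) x s) =ᶠ[𝓝 t] α m x := by
    have hball : Ioo (t - 1) (t + 1) ∈ 𝓝 t := Ioo_mem_nhds (by linarith) (by linarith)
    filter_upwards [hball] with s hs
    have hs1 : |s| < |t| + 1 := by
      have : |s - t| < 1 := abs_lt.mpr ⟨by linarith [hs.1], by linarith [hs.2]⟩
      have h3 : |s| ≤ |s - t| + |t| := by
        have := abs_add_le (s - t) t
        simpa using this
      linarith
    have hNs : N s ≤ m := by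
      have h1 : |s| ≤ ((⌈|t|⌉₊ + 1 : ℕ) : ℝ) := by
        have := Nat.le_ceil |t|
        push_cast
        linarith
      have h2 : ⌈|s|⌉₊ ≤ ⌈|t|⌉₊ + 1 := Nat.ceil_le.mpr h1
      simp only [N, hm]
      omega
    have hsN : s ∈ Icc (-(N s : ℝ)) (N s) := by
      have := hN s
      have h4 := abs_lt.mp this
      exact ⟨h4.1.le, h4.2.le⟩
    exact hcons (N s) m x hNs hsN
  have hder : HasDerivAt (α m x) (f t (α m x t)) t :=
    (hα m x t (Ioo_subset_Icc_self htm)).hasDerivAt (Icc_mem_nhds htm.1 htm.2)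
  have hval : α (N t) x t = α m x t := hev.self_of_nhds
  show HasDerivAt (fun s => α (N s) x s) (f t (α (N t) x t)) t
  rw [hval]
  exact hder.congr_of_eventuallyEq hev

end General

/-! ### Specialisation to `Field` -/

/-- A `C^1` compactly supported field is bounded and Lipschitz in the space variable. -/
theorem bounded_lipschitz_of_smooth (U : Field) (hU : ContDiff ℝ 1 U) (hc : HasCompactSupport U) :
    ∃ C K : ℝ≥0, (∀ p, ‖U p‖ ≤ C) ∧ ∀ t, LipschitzWith K (fun x => U (t, x)) := by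
  obtain ⟨C, hC⟩ := hU.continuous.bounded_above_of_compact_support hc
  obtain ⟨K, hK⟩ := hU.lipschitzWith_of_hasCompactSupport hc one_ne_zero
  have hC0 : 0 ≤ C := (norm_nonneg _).trans (hC (0, 0))
  refine ⟨⟨C, hC0⟩, K, fun p => hC p, fun t => ?_⟩
  refine LipschitzWith.of_dist_le_mul fun x y => ?_
  have h := hK.dist_le_mul (t, x) (t, y)
  have h2 : dist ((t, x) : ℝ × (Fin 3 → ℝ)) (t, y) = dist x y := by
    rw [Prod.dist_eq]
    simp
  rwa [h2] at h

/-- Real-valued form of `bounded_lipschitz_of_smooth`. -/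
theorem bounded_lipschitz_of_smooth' (U : Field) (hU : ContDiff ℝ 1 U)
    (hc : HasCompactSupport U) :
    ∃ C K : ℝ, 0 ≤ C ∧ 0 ≤ K ∧ (∀ p, ‖U p‖ ≤ C) ∧
      ∀ t x y, ‖U (t, x) - U (t, y)‖ ≤ K * ‖x - y‖ := by
  obtain ⟨C, K, hC, hK⟩ := bounded_lipschitz_of_smooth U hU hc
  refine ⟨C, K, C.2, K.2, hC, fun t x y => ?_⟩
  have := (hK t).dist_le_mul x y
  simpa [dist_eq_norm] using this

/-- Existence of a global flow from boundedness + Lipschitz + continuity. -/
theorem exists_isFlow_of_bounded_lipschitz (U : Field) (hcont : Continuous U) (C K : ℝ≥0)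
    (hC : ∀ p, ‖U p‖ ≤ C) (hK : ∀ t, LipschitzWith K (fun x => U (t, x))) :
    ∃ Φ : ℝ → (Fin 3 → ℝ) → (Fin 3 → ℝ), IsFlow U Φ := by
  obtain ⟨Φ, h0, h1⟩ := exists_global_solution (fun t x => U (t, x)) C K
    (fun x => hcont.comp (by fun_prop)) (fun t x => hC (t, x)) hK
  exact ⟨Φ, h0, h1⟩

/-- **(F1)** A `C^1` compactly supported field has a global flow. -/
theorem exists_isFlow (U : Field) (hU : ContDiff ℝ 1 U) (hc : HasCompactSupport U) :
    ∃ Φ : ℝ → (Fin 3 → ℝ) → (Fin 3 → ℝ), IsFlow U Φ := by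
  obtain ⟨C, K, hC, hK⟩ := bounded_lipschitz_of_smooth U hU hc
  exact exists_isFlow_of_bounded_lipschitz U hU.continuous C K hC hK

/-- **(F2)** Uniqueness: a curve solving the ODE on `[t₀, t₁]` and starting on the trajectory of `x`
at time `t₀` ends on it at time `t₁`. -/
theorem isFlow_eq_of_curve {U : Field} {Φ : ℝ → (Fin 3 → ℝ) → (Fin 3 → ℝ)} (hΦ : IsFlow U Φ)
    {K : ℝ≥0} (hLip : ∀ t, LipschitzWith K (fun x => U (t, x))) {t₀ t₁ : ℝ} (h01 : t₀ ≤ t₁)
    {x : Fin 3 → ℝ} (γ : ℝ → Fin 3 → ℝ) (h0 : γ t₀ = Φ t₀ x)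
    (hγ : ∀ t ∈ Icc t₀ t₁, HasDerivWithinAt γ (U (t, γ t)) (Icc t₀ t₁) t) :
    Φ t₁ x = γ t₁ := by
  have key := ODE_solution_unique (v := fun t y => U (t, y)) (K := K) (f := γ)
    (g := fun s => Φ s x) (a := t₀) (b := t₁) hLip
    (fun s hs => (hγ s hs).continuousWithinAt)
    (fun s hs => (hγ s (Ico_subset_Icc_self hs)).mono_of_mem_nhdsWithin
      (Icc_mem_nhdsGE_of_mem hs))
    (fun s _ => (hΦ.2 s x).continuousAt.continuousWithinAt)
    (fun s _ => (hΦ.2 s x).hasDerivWithinAt)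
    h0
  exact (key ⟨h01, le_rfl⟩).symm

/-- Same as `isFlow_eq_of_curve` with a real Lipschitz constant. -/
theorem isFlow_eq_of_curve' {U : Field} {Φ : ℝ → (Fin 3 → ℝ) → (Fin 3 → ℝ)} (hΦ : IsFlow U Φ)
    {K : ℝ} (hLip : ∀ t x y, ‖U (t, x) - U (t, y)‖ ≤ K * ‖x - y‖) {t₀ t₁ : ℝ} (h01 : t₀ ≤ t₁)
    {x : Fin 3 → ℝ} (γ : ℝ → Fin 3 → ℝ) (h0 : γ t₀ = Φ t₀ x)
    (hγ : ∀ t ∈ Icc t₀ t₁, HasDerivWithinAt γ (U (t, γ t)) (Icc t₀ t₁) t) :
    Φ t₁ x = γ t₁ := by
  refine isFlow_eq_of_curve hΦ (K := Real.toNNReal K) (fun t => ?_) h01 γ h0 hγ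
  refine LipschitzWith.of_dist_le_mul fun y z => ?_
  rw [dist_eq_norm, dist_eq_norm]
  refine (hLip t y z).trans ?_
  exact mul_le_mul_of_nonneg_right (Real.le_coe_toNNReal K) (norm_nonneg _)

/-- **(F3a)** While the field vanishes along the constant curve, the flow does not move. -/
theorem isFlow_const_of_zero {U : Field} {Φ : ℝ → (Fin 3 → ℝ) → (Fin 3 → ℝ)} (hΦ : IsFlow U Φ)
    {K : ℝ≥0} (hLip : ∀ t, LipschitzWith K (fun x => U (t, x))) {t₀ t₁ : ℝ} (h01 : t₀ ≤ t₁)
    {x : Fin 3 → ℝ} (hzero : ∀ t ∈ Icc t₀ t₁, U (t, Φ t₀ x) = 0) :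
    Φ t₁ x = Φ t₀ x := by
  refine isFlow_eq_of_curve hΦ hLip h01 (fun _ => Φ t₀ x) rfl (fun t ht => ?_)
  rw [hzero t ht]
  exact hasDerivWithinAt_const _ _ _

/-- **(F3b)** Straight-line phase: if along the curve `y₀ + σ t • v` (with `y₀ = Φ t₀ x`) the field
equals `σ' t • v`, then at time `t₁` the flow has moved `y₀` to `y₀ + σ t₁ • v`. -/
theorem isFlow_eq_add_smul {U : Field} {Φ : ℝ → (Fin 3 → ℝ) → (Fin 3 → ℝ)} (hΦ : IsFlow U Φ)
    {K : ℝ≥0} (hLip : ∀ t, LipschitzWith K (fun x => U (t, x))) {t₀ t₁ : ℝ} (h01 : t₀ ≤ t₁)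
    {x : Fin 3 → ℝ} (v : Fin 3 → ℝ) (σ σ' : ℝ → ℝ) (hσ0 : σ t₀ = 0)
    (hσ : ∀ t ∈ Icc t₀ t₁, HasDerivAt σ (σ' t) t)
    (hU : ∀ t ∈ Icc t₀ t₁, U (t, Φ t₀ x + σ t • v) = σ' t • v) :
    Φ t₁ x = Φ t₀ x + σ t₁ • v := by
  refine isFlow_eq_of_curve hΦ hLip h01 (fun t => Φ t₀ x + σ t • v) (by simp [hσ0]) (fun t ht => ?_)
  rw [hU t ht]
  exact (((hσ t ht).smul_const v).const_add (Φ t₀ x)).hasDerivWithinAt

end Crest.Agent.Helper68
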